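import Vale.Agent.H28.P355.Defs

/-! P355, rows N0 and N4. -/

namespace Vale.Agent.H22.P355

set_option linter.style.haveILetI false

open scoped ComplexConjugate IntermediateField

/-- Row N4. -/
theorem I_not_mem (m : ℕ) (hm : Odd m) (ζ : ℂ) (hζ : ζ ^ m = 1) : Complex.I ∉ ℚ⟮ζ⟯ := by
  intro hI
  set n := orderOf ζ with hn
  have hdvd : n ∣ m := orderOf_dvd_of_pow_eq_one hζ
  have hodd : Odd n := hm.of_dvd_nat hdvd
  have hn0 : n ≠ 0 := by
    rintro h
    rw [h] at hodd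
    exact absurd hodd (by decide)
  haveI : NeZero n := ⟨hn0⟩
  have hprim : IsPrimitiveRoot ζ n := IsPrimitiveRoot.orderOf ζ
  have halg : IsIntegral ℚ ζ := hprim.isIntegral (Nat.pos_of_ne_zero hn0) |>.tower_top
  haveI hcyc : IsCyclotomicExtension {n} ℚ ℚ⟮ζ⟯ := by
    change IsCyclotomicExtension {n} ℚ (IntermediateField.adjoin ℚ {ζ}).toSubalgebra
    rw [IntermediateField.adjoin_simple_toSubalgebra_of_isAlgebraic halg.isAlgebraic]
    exact hprim.adjoin_isCyclotomicExtension ℚ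
  haveI : NumberField ℚ⟮ζ⟯ := IsCyclotomicExtension.numberField {n} ℚ ℚ⟮ζ⟯
  have hI4 : IsPrimitiveRoot (⟨Complex.I, hI⟩ : ℚ⟮ζ⟯) 4 := by
    have h := Complex.isPrimitiveRoot_I
    exact IsPrimitiveRoot.of_map_of_injective (f := algebraMap ℚ⟮ζ⟯ ℂ) h (algebraMap ℚ⟮ζ⟯ ℂ).injective
  have h4 := IsPrimitiveRoot.dvd_of_isCyclotomicExtension (K := ℚ⟮ζ⟯) n hI4 (by norm_num)
  obtain ⟨k, hk⟩ := hodd
  omega

/-- Row N0 (Frobenius). -/
theorem frob (p : ℕ) (hp : p.Prime) (j : ℕ) (P : Polynomial ℤ) :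
    ∃ Q : Polynomial ℤ, P ^ (p ^ j) = Polynomial.expand ℤ (p ^ j) P + Polynomial.C (p : ℤ) * Q := by
  haveI : Fact p.Prime := ⟨hp⟩
  have hkey : ∀ f : Polynomial (ZMod p), Polynomial.expand (ZMod p) (p ^ j) f = f ^ (p ^ j) := by
    induction j with
    | zero => intro f; simp
    | succ j ih =>
      intro f
      rw [pow_succ, Polynomial.expand_mul, ZMod.expand_card, ih, ← pow_mul, mul_comm p]
  have h1 : (P ^ (p ^ j) - Polynomial.expand ℤ (p ^ j) P).map (Int.castRingHom (ZMod p)) = 0 := by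
    rw [Polynomial.map_sub, Polynomial.map_pow, Polynomial.map_expand, hkey, sub_self]
  have h2 : Polynomial.C (p : ℤ) ∣ P ^ (p ^ j) - Polynomial.expand ℤ (p ^ j) P := by
    rw [Polynomial.C_dvd_iff_dvd_coeff]
    intro i
    have h3 := congrArg (fun f => Polynomial.coeff f i) h1
    simp only [Polynomial.coeff_map, Polynomial.coeff_zero] at h3
    exact (ZMod.intCast_zmod_eq_zero_iff_dvd _ p).1 h3
  obtain ⟨Q, hQ⟩ := h2
  exact ⟨Q, by rw [← hQ]; ring⟩

end Vale.Agent.H22.P355
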